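import Vale.Agent.P174.Tower.Final

namespace Vale.Agent.Results.P174.IndicableClosure

open Vale.Agent.P174

universe u

/-- Howie's conjecture passes through local indicability: it holds over a group once it holds
over its nontrivial finitely generated subgroups without nonzero homomorphisms to the integers.
Hence it passes to extensions by locally indicable groups, and it is enough to prove it for
finitely generated groups without such homomorphisms. -/
theorem result :
    (∀ (G : Type u) [Group G],
      (∀ H : Subgroup G, H.FG → H ≠ ⊥ →
        (∃ χ : H →* Multiplicative ℤ, χ ≠ 1) ∨ Conjecture H) → Conjecture G) ∧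
    (∀ (G : Type u) [Group G] (N : Subgroup G) [N.Normal], Conjecture N →
      (∀ K : Subgroup (G ⧸ N), K.FG → K ≠ ⊥ → ∃ χ : K →* Multiplicative ℤ, χ ≠ 1) →
        Conjecture G) ∧
    ((∀ (G : Type u) [Group G], Conjecture G) ↔
      ∀ (G : Type u) [Group G], Group.FG G → (∀ χ : G →* Multiplicative ℤ, χ = 1) →
        Conjecture G) :=
  ⟨fun _ _ h => Tower.conjecture_of_subgroups h,
    fun _ _ N _ hN hQ => Tower.conjecture_of_extension N hN hQ,
    Tower.conjecture_iff_fg_no_hom⟩

end Vale.Agent.Results.P174.IndicableClosure
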