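import Vale.Agent.P174.Elim
import Vale.Agent.P174.Killing

namespace Vale.Agent.Results.P174.SparseSystems

open Vale.Agent.P174

universe u

/-- Systems with at most two occurrences of each unknown, or at most two unknown letters in each
equation, are solvable; with three in place of two one gets an equivalent form of the
conjecture, even if only the vanishing of the whole coefficient group is to be excluded. -/
theorem result :
    (∀ (G : Type u) [Group G] (m n : ℕ) (l : Fin m → List (Letter G (Fin n))),
      Nonsingular (fun i => word (l i)) →
      ((∀ j, ∑ i, occ j (l i) ≤ 2) ∨ (∀ i, numUnk (l i) ≤ 2)) →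
      Solvable (fun i => word (l i))) ∧
    (∀ (G : Type u) [Group G], Conjecture G ↔ NormalFormConjecture G) ∧
    ((∀ (G : Type u) [Group G], Conjecture G) ↔ NoKilling.{u}) := by
  refine ⟨?_, fun G _ => conjecture_iff G, conjecture_iff_noKilling⟩
  intro G _ m n l hns hok
  obtain ⟨h, hh⟩ := exists_solution (double (G := G)) double_root m l hns hok
  exact ⟨Equiv.Perm (G × Bool), inferInstance, double, h, double_injective,
    fun i => by rw [lift_word]; exact hh i⟩

end Vale.Agent.Results.P174.SparseSystems
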